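import Crest.Agent.X262.Val40.Pull
import Crest.Agent.X262.Loc95.Prj
import Crest.Agent.X262.Mod79.QP

/-!
# Row 262, road B (helper34), part 0: conservation of number

* `rn α l`   : the intersection number of `l` on the generic fibre of `α : K → F`; `bnum_rn`;
* `dg_car`, `cyc_fin` : the cycle formula over all divisorial valuations;
* `res_pb`, `lin_rs_pb` : restriction of pull-backs;
* `cw α l W` : the degree of `l` on the component `W` of the special fibre;
* `spec`     : `∑_{W | V} e(W / V) * cw α l W = rn α l`;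
* `finsum_rel` : the relative projection formula for sums over divisorial valuations.
-/

set_option autoImplicit false
set_option linter.unusedSectionVars false
set_option linter.style.haveILetI false

noncomputable section

namespace Crest.Agent.X262.Div

open Crest.Agent.X277 Crest.Agent.X277.BD Crest.Agent.X277.Pst Crest.Agent.X277.BD.Cyc
open Crest.Agent.X262.Geo Crest.Agent.X262.Val40
open Crest.Agent.X262.Mod (IsMod Car)

variable {k K F : Type} [Field k] [Field K] [Field F] [Algebra k K] [Algebra k F] [CharZero k]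

open Classical in
/-- the intersection number on the generic fibre -/
def rn (α : K →ₐ[k] F) (l : List (BD k F)) : ℤ :=
  if h : Algebra.EssFiniteType k F then
    letI := α.toRingHom.toAlgebra
    haveI : IsScalarTower k K F := IsScalarTower.of_algebraMap_eq fun c => (α.commutes c).symm
    haveI : Algebra.EssFiniteType K F := Algebra.EssFiniteType.of_comp k K F
    haveI : CharZero K := charZero_of_injective_algebraMap (algebraMap k K).injective
    bnum (l.map (up K))
  else 0

theorem rn_tower [Algebra K F] [IsScalarTower k K F] [CharZero K] [Algebra.EssFiniteType k F]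
    [Algebra.EssFiniteType K F] (l : List (BD k F)) :
    rn (IsScalarTower.toAlgHom k K F) l = bnum (l.map (up K)) := by
  unfold rn
  rw [dif_pos ‹Algebra.EssFiniteType k F›]
  congr!
  all_goals exact Algebra.algebra_ext _ _ fun _ => rfl

/-- every embedding comes from a tower -/
theorem tower_ind [Algebra.EssFiniteType k F] {P : (K →ₐ[k] F) → Prop}
    (h : ∀ [Algebra K F] [IsScalarTower k K F] [CharZero K] [Algebra.EssFiniteType K F],
      P (IsScalarTower.toAlgHom k K F)) (α : K →ₐ[k] F) : P α := by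
  letI := α.toRingHom.toAlgebra
  haveI : IsScalarTower k K F := IsScalarTower.of_algebraMap_eq fun c => (α.commutes c).symm
  haveI : Algebra.EssFiniteType K F := Algebra.EssFiniteType.of_comp k K F
  haveI : CharZero K := charZero_of_injective_algebraMap (algebraMap k K).injective
  exact h

section res

variable {α : K →ₐ[k] F} {W : RZ k F} {a b : BD k K}

theorem dn_cm (α : K →ₐ[k] F) (W : RZ k F) (U : RZ k (Rf W)) :
    dn α ((plV W).cm U) = (plV (dn α W)).cm (dn (rf α W) U) :=
  Subtype.ext (ValuationSubring.ext _ _ fun x => by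
    rw [mem_dn, Pl.mem_cm, Pl.mem_cm, mem_dn]
    exact and_congr Iff.rfl (by rw [rf_r]))

theorem res_pb (hb : b.val (dn α W) = 1) :
    (plV W).res (pb α b) = pb (rf α W) ((plV (dn α W)).res b) :=
  ext' fun U => by
    have h1 := v_gen b (dn α ((plV W).cm U))
    have h2 : (pb α b).val (plV W).V = 1 := val_mp_eq_one.2 hb
    rw [Pl.val_res h2 (v_eq_val_mp.2 h1)]
    rw [dn_cm] at h1
    have h3 := Pl.val_res (p := plV (dn α W)) hb h1
    rw [pb, val_mp h3.symm, ← dn_cm]
    exact congrArg U.v (rf_r α W _).symm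

theorem lin_rs_pb (α : K →ₐ[k] F) (W : RZ k F) (a : BD k K) :
    Lin ((plV W).rs (pb α a)) (pb (rf α W) ((plV (dn α W)).rs a)) := by
  have h1 := v_gen a (dn α W)
  have h2 := Pl.lin_rs (p := plV W) (a := pb α a) (v_eq_val_mp.2 h1)
  rw [show ((α : K →+* F) (a.gen (dn α W))) = α (a.gen (dn α W)) from rfl, ← pb_pr, ← map_sub,
    res_pb (Pl.val_sub_gen (p := plV (dn α W)) h1)] at h2
  exact h2

end res

variable [Algebra.EssFiniteType k F]

section cyc

variable {H a : BD k F} {V : RZ k F}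

theorem dg_free (hH : Free H) (hV : Dvs V) (h : ¬ Prm H V) : ∀ (l : List (BD k F)),
    (∀ b ∈ l, Free b ∧ Car H b) → ∀ i, dg V (l ++ List.replicate i H) = 0
  | [], _, i => by
    by_cases hd : dim k F = i + 1
    · exact dg_eq_zero hH hV h hd
    · exact dg_of_ne hV (by simpa using Ne.symm hd)
  | b :: l, hl, i => by
    obtain ⟨⟨h1, c, -, h2⟩, h3⟩ := List.forall_mem_cons.1 hl
    have h4 : ∀ x ∈ l ++ List.replicate i H, Nef x := fun x hx =>
      (List.mem_append.1 hx).elim (fun h => (h3 x h).1.nef)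
        fun h => List.eq_of_mem_replicate h ▸ hH.nef
    have h5 := dg_nonneg (V := V) (List.forall_mem_cons.2 ⟨h1.nef, h4⟩)
    have h6 := dg_nonneg (V := V) (List.forall_mem_cons.2 ⟨h2.nef, h4⟩)
    have h7 := dg_free hH hV h l h3 (i + 1)
    rw [List.replicate_succ, dg_perm List.perm_middle] at h7
    rw [dg_sub, dg_nsmul, h7] at h6
    rw [List.cons_append]
    omega

theorem dg_car' (hH : Free H) (hV : Dvs V) (h : ¬ Prm H V) : ∀ (l : List (BD k F)),
    (∀ b ∈ l, Car H b) → ∀ l' : List (BD k F), (∀ b ∈ l', Free b ∧ Car H b) → dg V (l ++ l') = 0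
  | [], _, l', hl' => by simpa using dg_free hH hV h l' hl' 0
  | b :: l, hl, l', hl' => by
    obtain ⟨h0, h3⟩ := List.forall_mem_cons.1 hl
    obtain ⟨c, h1, -⟩ := id h0
    have hc : Car H (c • H) := (Mod.car_self hH).nsmul c
    have h4 := dg_car' hH hV h l h3 _ (List.forall_mem_cons.2 ⟨⟨h1, hc.add h0⟩, hl'⟩)
    have h5 := dg_car' hH hV h l h3 _ (List.forall_mem_cons.2 ⟨⟨hH.nsmul c, hc⟩, hl'⟩)
    rw [dg_perm List.perm_middle] at h4 h5
    rw [dg_add, h5, zero_add] at h4
    exact h4

/-- classes of a model have degree zero on exceptional divisors -/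
theorem dg_car (hH : Free H) (hV : Dvs V) (h : ¬ Prm H V) {l : List (BD k F)}
    (hl : ∀ b ∈ l, Car H b) : dg V l = 0 := by
  simpa using dg_car' hH hV h l hl [] (by simp)

/-- the cycle formula over all divisorial valuations -/
theorem cyc_fin (a : BD k F) (l : List (BD k F)) : ∃ T : Finset (RZ k F), (∀ V ∈ T, Dvs V) ∧
    (∀ V, Dvs V → od V a * dg V l ≠ 0 → V ∈ T) ∧ bnum (a :: l) = ∑ V ∈ T, od V a * dg V l := by
  obtain ⟨H, h1, -, -, -, h4⟩ := exists_model Free.zero ∅ (by simp) (a :: l)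
  obtain ⟨h5, h6⟩ := List.forall_mem_cons.1 h4
  have h7 : ∀ V, V ∈ (fin_od h1 a).toFinset ↔ Prm H V ∧ od V a ≠ 0 := fun V =>
    Set.Finite.mem_toFinset _
  refine ⟨(fin_od h1 a).toFinset, fun V hV => ((h7 V).1 hV).1.dvs, fun V hV h => (h7 V).2
    ⟨by_contra fun h8 => h ?_, left_ne_zero_of_mul h⟩,
    bnum_cyc h1 h5 h6 (fun V hV => ((h7 V).1 hV).1) fun V h h' => (h7 V).2 ⟨h, h'⟩⟩
  rw [dg_car h1.free hV h8 h6, mul_zero]

/-- classes which isolate a divisorial valuation -/
theorem exists_iso (hV : Dvs V) : ∃ (a : BD k F) (l : List (BD k F)), od V a = 1 ∧ dg V l ≠ 0 ∧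
    l.length + 1 = dim k F ∧ ∀ W, Dvs W → W ≠ V → od W a * dg W l = 0 := by
  obtain ⟨H, h1, -, -, h3, -⟩ := exists_model Free.zero {V} (by simpa using hV) []
  obtain ⟨d, hd⟩ := dim_pos_of_ne hV.ne_top
  obtain ⟨a, -, h4, h5⟩ := h1.exists_single ⟨V, hV⟩
  refine ⟨a, List.replicate d H, h4, (dg_pos h1 (h3 V (by simp)) hd).ne', by simp [hd],
    fun W hW h => ?_⟩
  by_cases h6 : Prm H W
  · exact mul_eq_zero_of_left (h5 ⟨W, hW⟩ h6 fun h7 => h (congrArg Subtype.val h7)) _
  · rw [dg_eq_zero h1.free hW h6 hd, mul_zero]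

end cyc

variable [Algebra.EssFiniteType k K] {α : K →ₐ[k] F} {W : RZ k F} {V : RZ k K} {a b : BD k K}

/-- projection formula -/
theorem bnum_rn (α : K →ₐ[k] F) (l : List (BD k F)) {lam : List (BD k K)}
    (h : lam.length = dim k K) : bnum (l ++ lam.map (pb α)) = bnum lam * rn α l := by
  induction α using tower_ind with
  | h => rw [rn_tower, Loc.bnum_prj l h]

theorem rn_nil (α : K →ₐ[k] F) : rn α [] = deg α := by
  induction α using tower_ind with
  | h => rw [rn_tower, deg_tower, List.map_nil, Loc.bnum_nil]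

theorem rn_of_ne (α : K →ₐ[k] F) {l : List (BD k F)} (h : dim k K + l.length ≠ dim k F) :
    rn α l = 0 := by
  induction α using tower_ind with
  | h =>
    rw [rn_tower, bnum_of_ne]
    rw [Loc.dim_tower k K F] at h
    simpa using h

theorem rn_congr (α : K →ₐ[k] F) {l l' : List (BD k F)} (h : List.Forall₂ Lin l l') :
    rn α l = rn α l' := by
  induction α using tower_ind with
  | h =>
    rw [rn_tower, rn_tower, ← List.append_nil (l.map _), ← List.append_nil (l'.map _)]
    refine bnum_congr ?_ []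
    rw [List.forall₂_map_left_iff, List.forall₂_map_right_iff]
    exact h.imp fun _ _ h => h.up K

theorem dvs_dn_of_od (hW : Dvs W) (h : od W (pb α a) ≠ 0) : Dvs (dn α W) :=
  dvs_dn hW (dn_ne_top_of_od hW h)

theorem od_pb_eq_zero (hW : Dvs W) (hV : Dvs (dn α W)) : od W (pb α a) = 0 ↔ od (dn α W) a = 0 := by
  rw [od_eq_zero hW, od_eq_zero hV]
  exact val_mp_eq_one

/-- the degree of `l` on the component `W` of the special fibre -/
def cw (α : K →ₐ[k] F) (l : List (BD k F)) (W : RZ k F) : ℤ := rn (rf α W) (l.map (plV W).rs)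

theorem dg_pb (hW : Dvs W) (hV : Dvs (dn α W)) (l : List (BD k F)) {lam : List (BD k K)}
    (h : lam.length + 1 = dim k K) :
    dg W (l ++ lam.map (pb α)) = dg (dn α W) lam * cw α l W := by
  haveI := essFT_Rf hW
  haveI := essFT_Rf hV
  rw [dim_Rf' hV] at h
  rw [Geo.dg_eq, Geo.dg_eq, cw, ← bnum_rn _ _ (by simpa using h), List.map_append, bnum_comm,
    bnum_comm (l.map _)]
  refine bnum_congr ?_ _
  simp only [List.map_map, List.forall₂_map_left_iff, List.forall₂_map_right_iff,
    List.forall₂_same]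
  exact fun x _ => lin_rs_pb α W x

/-- **conservation of number** -/
theorem spec (α : K →ₐ[k] F) (l : List (BD k F)) (hV : Dvs V) : ∃ T : Finset (RZ k F),
    (∀ W ∈ T, Dvs W ∧ dn α W = V) ∧ (∀ W, Dvs W → dn α W = V → cw α l W ≠ 0 → W ∈ T) ∧
    ∑ W ∈ T, ram α W * cw α l W = rn α l := by
  classical
  obtain ⟨b, lam, h1, h2, h3, h4⟩ := exists_iso hV
  obtain ⟨S, s1, s2, s3⟩ := cyc_fin b lam
  obtain ⟨T, t1, t2, t3⟩ := cyc_fin (pb α b) (l ++ lam.map (pb α))
  have e1 : bnum (b :: lam) = dg V lam := by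
    rw [s3, Finset.sum_eq_single_of_mem V (s2 V hV (by rwa [h1, one_mul]))
      fun W hW h => h4 W (s1 W hW) h, h1, one_mul]
  have e2 := bnum_rn α l (lam := b :: lam) h3
  rw [List.map_cons, bnum_mid, t3, e1] at e2
  have e3 : ∀ W, Dvs W → dn α W = V → od W (pb α b) * dg W (l ++ lam.map (pb α)) =
      dg V lam * (ram α W * cw α l W) := fun W hW h => by
    subst h
    rw [dg_pb hW hV l h3, od_pb hW hV.ne_top, h1]
    ring
  have e4 : ∑ W ∈ T.filter fun W => dn α W = V, ram α W * cw α l W = rn α l := by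
    refine mul_left_cancel₀ h2 ?_
    rw [← e2, Finset.mul_sum, ← Finset.sum_filter_of_ne (s := T) (p := fun W => dn α W = V)]
    · exact Finset.sum_congr rfl fun W hW =>
        (e3 W (t1 W (Finset.mem_filter.1 hW).1) (Finset.mem_filter.1 hW).2).symm
    · intro W hW h
      have h5 := dvs_dn_of_od (t1 W hW) (left_ne_zero_of_mul h)
      by_contra h6
      rcases mul_eq_zero.1 (h4 _ h5 h6) with h7 | h7
      · exact left_ne_zero_of_mul h ((od_pb_eq_zero (t1 W hW) h5).2 h7)
      · exact right_ne_zero_of_mul h (by rw [dg_pb (t1 W hW) h5 l h3, h7, zero_mul])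
  refine ⟨T.filter fun W => dn α W = V, fun W hW => ⟨t1 W (Finset.mem_filter.1 hW).1,
    (Finset.mem_filter.1 hW).2⟩, fun W hW h h0 => Finset.mem_filter.2 ⟨t2 W hW ?_, h⟩, e4⟩
  rw [e3 W hW h]
  subst h
  exact mul_ne_zero h2 (mul_ne_zero (Nat.cast_ne_zero.2 (ram_pos hW hV.ne_top).ne') h0)

/-- sums over the fibres of a map -/
theorem finsum_fib' {X Y R : Type*} [CommRing R] [IsDomain R] (π : X → Y) (w : X → R) (G : Y → R)
    {n : R} (h : ∀ y, G y ≠ 0 → ∃ T : Finset X, (∀ x ∈ T, π x = y) ∧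
      (∀ x, π x = y → w x ≠ 0 → x ∈ T) ∧ ∑ x ∈ T, w x = n) :
    ∑ᶠ x, w x * G (π x) = n * ∑ᶠ y, G y := by
  classical
  by_cases hS : (Function.support fun x => w x * G (π x)).Finite
  · have h1 : ∀ x, x ∈ hS.toFinset ↔ w x ≠ 0 ∧ G (π x) ≠ 0 := fun x => by simp
    have h2 : ∑ x ∈ hS.toFinset, w x * G (π x) = ∑ y ∈ hS.toFinset.image π, n * G y := by
      rw [← Finset.sum_fiberwise_of_maps_to (s := hS.toFinset) (t := hS.toFinset.image π) (g := π)
        fun x hx => Finset.mem_image_of_mem π hx]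
      refine Finset.sum_congr rfl fun y hy => ?_
      obtain ⟨x, hx, rfl⟩ := Finset.mem_image.1 hy
      obtain ⟨T, t1, t2, t3⟩ := h _ ((h1 x).1 hx).2
      rw [← t3, Finset.sum_mul]
      refine (Finset.sum_subset (fun z hz => ?_) fun z hz hz' => ?_).trans
        (Finset.sum_congr rfl fun z hz => by rw [t1 z hz])
      · exact t2 z (Finset.mem_filter.1 hz).2 ((h1 z).1 (Finset.mem_filter.1 hz).1).1
      · by_contra h3
        exact hz' (Finset.mem_filter.2 ⟨(h1 z).2 (mul_ne_zero_iff.1 h3), t1 z hz⟩)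
    rw [finsum_eq_sum _ hS, h2, ← Finset.mul_sum]
    by_cases hn : n = 0
    · rw [hn, zero_mul, zero_mul]
    · rw [finsum_eq_sum_of_support_subset (s := hS.toFinset.image π) G fun y hy => ?_]
      obtain ⟨T, t1, -, t3⟩ := h y hy
      obtain ⟨x, hx, h3⟩ := Finset.exists_ne_zero_of_sum_ne_zero (t3 ▸ hn)
      exact Finset.mem_coe.2 (Finset.mem_image.2 ⟨x, (h1 x).2 ⟨h3, (t1 x hx).symm ▸ hy⟩, t1 x hx⟩)
  · rw [finsum_of_infinite_support hS, finsum_of_infinite_support fun hG => hS ?_, mul_zero]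
    choose! T _ t2 _ using h
    refine (hG.biUnion fun y _ => (T y).finite_toSet).subset fun x hx => ?_
    exact Set.mem_biUnion (right_ne_zero_of_mul hx)
      (t2 _ (right_ne_zero_of_mul hx) x rfl (left_ne_zero_of_mul hx))

/-- **projection formula** for sums over divisorial valuations, with a relative degree -/
theorem finsum_rel {R : Type*} [CommRing R] [IsDomain R] [CharZero R] (α : K →ₐ[k] F)
    (l : List (BD k F)) (a : BD k K) (g : RZ k K → R) (g' : RZ k F → R)
    (h : ∀ W, Dvs W → Dvs (dn α W) → od (dn α W) a ≠ 0 → g' W = cw α l W * g (dn α W)) :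
    ∑ᶠ (W) (_ : Dvs W), (od W (pb α a) : R) * g' W =
      rn α l * ∑ᶠ (V) (_ : Dvs V), (od V a : R) * g V := by
  classical
  rw [← finsum_fib' (dn α) (fun W => if Dvs W then ((ram α W * cw α l W : ℤ) : R) else 0) _
    fun V hV => ?_]
  · refine finsum_congr fun W => ?_
    rw [finsum_eq_if, finsum_eq_if]
    by_cases hW : Dvs W
    swap
    · rw [if_neg hW, if_neg hW, zero_mul]
    rw [if_pos hW, if_pos hW]
    by_cases h0 : (dn α W).1 = ⊤
    · rw [od_pb_top hW h0, if_neg fun h1 => h1.ne_top h0, Int.cast_zero, zero_mul, mul_zero]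
    rw [if_pos (dvs_dn hW h0), od_pb hW h0]
    by_cases h2 : od (dn α W) a = 0
    · simp [h2]
    · rw [h W hW (dvs_dn hW h0) h2]
      push_cast
      ring
  · have h2 : Dvs V := by
      by_contra h2
      exact hV (by rw [finsum_eq_if, if_neg h2])
    obtain ⟨T, t1, t2, t3⟩ := spec α l h2
    refine ⟨T, fun W hW => (t1 W hW).2, fun W hW h3 => ?_, ?_⟩
    · by_cases h4 : Dvs W
      · rw [if_pos h4] at h3
        exact t2 W h4 hW fun h5 => h3 (by rw [h5, mul_zero, Int.cast_zero])
      · exact (h3 (if_neg h4)).elim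
    · rw [← t3, Int.cast_sum]
      exact Finset.sum_congr rfl fun W hW => if_pos (t1 W hW).1

end Crest.Agent.X262.Div
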