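import Crest.Agent.X262.Div34.Spec
import Crest.Agent.X262.Tr89.Fib
import Crest.Agent.X262.Val40.Cfg
import Crest.Agent.X262.Vb.Bas1
import Crest.Agent.X262.Vb.Defs
import Crest.Agent.X262.Hb.Sat2

/-!
# Row 262, road B (helper34), part 1: virtual numbers along a fibration

* `rn_comp`, `rn_pb` : relative numbers in towers;
* `itg_rn`   : integration along the fibres;
* `exc_geq`, `exc_map`, `trm_map` : the integrand under gauge and field extension;
* `vir_rel`  : `vir` of a pulled back configuration against divisor classes of the fibre.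
-/

set_option autoImplicit false
set_option linter.unusedSectionVars false
set_option linter.style.haveILetI false

noncomputable section

namespace Crest.Agent.X262.Div

open Crest.Agent.X277 Crest.Agent.X277.BD Crest.Agent.X277.Pst Crest.Agent.X277.BD.Cyc
open Crest.Agent.X262.Geo Crest.Agent.X262.Hb Crest.Agent.X262.Vb
open Crest.Agent.X262.Val40 (dn rf rf_r mem_dn dim_rf Sq)
open Crest.Agent.X262.Tr89 (pc)

section Tow

variable {k K L F : Type} [Field k] [Field K] [Field L] [Field F] [Algebra k K] [Algebra k L]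
  [Algebra k F] [CharZero k] [Algebra.EssFiniteType k K] [Algebra.EssFiniteType k L]
  [Algebra.EssFiniteType k F]

variable (k K) in
theorem exists_lam : ∃ lam : List (BD k K), lam.length = dim k K ∧ bnum lam ≠ 0 := by
  obtain ⟨H, h1, -⟩ := exists_model (k := k) (F := K) Free.zero ∅ (by simp) []
  refine ⟨List.replicate (dim k K) H, by simp, (bnum_pos (by simp) fun x hx => ?_).ne'⟩
  rw [List.eq_of_mem_replicate hx]
  exact ⟨h1.free.nef, h1.big⟩

/-- a finite extension of the base -/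
theorem rn_comp (α : K →ₐ[k] L) (β : L →ₐ[k] F) (hd : dim k L = dim k K) (l : List (BD k F)) :
    rn (β.comp α) l = deg α * rn β l := by
  obtain ⟨lam, h1, h2⟩ := exists_lam k K
  have h3 := bnum_rn β l (lam := lam.map (pb α)) (by simp [h1, hd])
  rw [bnum_pb, List.map_map, show pb β ∘ pb α = pb (β.comp α) from funext (pb_pb β α),
    bnum_rn _ l h1] at h3
  exact mul_left_cancel₀ h2 (h3.trans (by ring))

/-- an extension of the total space -/
theorem rn_pb (α : K →ₐ[k] L) (β : L →ₐ[k] F) (l : List (BD k L)) :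
    rn (β.comp α) (l.map (pb β)) = deg β * rn α l := by
  obtain ⟨lam, h1, h2⟩ := exists_lam k K
  have h3 := bnum_pb β (l ++ lam.map (pb α))
  rw [bnum_rn _ l h1, List.map_append, List.map_map,
    show pb β ∘ pb α = pb (β.comp α) from funext (pb_pb β α), bnum_rn _ _ h1] at h3
  exact mul_left_cancel₀ h2 (h3.trans (by ring))

end Tow

variable {J : Type} [Fintype J] [DecidableEq J] {io : J → Type} [∀ j, Fintype (io j)]
  [∀ j, DecidableEq (io j)] {A : Type} [Fintype A] {B : Th} {T : Tgt io A}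
variable {I I' M M' K L : Type} [Fintype I] [Fintype I'] [Field K] [Algebra ℂ K] [Field L]
  [Algebra ℂ L] [Algebra.EssFiniteType ℂ K] [Algebra.EssFiniteType ℂ L] {Φ : MFam B io M}

/-- integration along the fibres -/
theorem itg_rn (hB : B.Ax) (α : K →ₐ[ℂ] L) (φ : B.H K) {l : List (BD ℂ L)}
    (h : l.length + dim ℂ K ≤ dim ℂ L) :
    B.itg L (pc B l * B.pb (LP.hom α) φ) = rn α l * B.itg K φ := by
  induction α using tower_ind with
  | h => rw [rn_tower, Tr89.fib hB φ l h]

theorem exc_geq (hB : B.Ax) {z z' : Cfg io I K} (h : z.Geq z') (hz : z.NZ) (δ : B.H K) :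
    exc B T z' δ = exc B T z δ := by
  obtain ⟨c, hc, rfl⟩ := h
  rw [exc, exc, Cfg.Eb_gau T hc]
  exact congrArg (Polynomial.eval δ) (hB.cq_dia (fun x : A × I => Node22.chr_ne (hc x.2) _)
    (congrFun (Cfg.ea_gau T hz hc)) _)

theorem exc_map (hB : B.Ax) (α : K →ₐ[ℂ] L) (z : Cfg io I K) (δ : B.H K) :
    exc B T (z.map α) (B.pb (LP.hom α) δ) = B.pb (LP.hom α) (exc B T z δ) := by
  rw [exc, exc, hB.pb_eval_cq fun _ => val_hom α _, Cfg.ea_map, Cfg.Eb_map, ← redS_hom]
  rfl

theorem mcls_geq (hΦ : MCls B T Φ) {z z' : Cfg io I K} (h : z.Geq z') (hz : z.NZ) (hO : z.On T)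
    (m : M → I) : (Φ K fun q => z'.y (m q)) = Φ K fun q => z.y (m q) := by
  obtain ⟨c, hc, rfl⟩ := h
  exact hΦ.scl K (fun q => z.y (m q)) (fun q => c (m q)) (fun _ => hc _) (fun _ => hz _)
    fun _ => hO _

theorem mcls_map (hΦ : MCls B T Φ) (α : K →ₐ[ℂ] L) {z : Cfg io I K} (hz : z.NZ) (hO : z.On T)
    (m : M → I) : (Φ L fun q => (z.map α).y (m q)) = B.pb (LP.hom α) (Φ K fun q => z.y (m q)) := by
  rw [hΦ.nat K L (LP.hom α) _ (fun _ => prim_hom α (hz _)) fun _ => hO _]
  simp only [redP_hom]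
  rfl

/-- the integrand of a pulled back configuration is pulled back -/
theorem trm_map (hB : B.Ax) (hΦ : MCls B T Φ) (θ : K →ₐ[ℂ] L) {z : Cfg io I K} (hz : z.NZ)
    (m : M → I) {W : RZ ℂ L} (hW : Dvs W) (hV : Dvs (dn θ W)) (h : od (dn θ W) (z.dv T) ≠ 0) :
    trm B T (z.map θ) m Φ W = B.pb (LP.hom (rf θ W)) (trm B T z m Φ (dn θ W)) := by
  haveI := essFT_Rf hW
  haveI := essFT_Rf hV
  have hS : Sq θ (plV (dn θ W)) (plV W) (rf θ W) := ⟨fun _ => Iff.rfl, fun x => (rf_r θ W x).symm⟩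
  have hG : ((z.red (plV (dn θ W))).map (rf θ W)).Geq ((z.map θ).red (plV W)) := hS.red z
  have hN := hz.red (plV (dn θ W))
  have hO : (z.red (plV (dn θ W))).On T :=
    Cfg.on_red_of T (lnr_plV _) hz fun h0 => h ((od_eq_zero hV).2 h0)
  rw [trm, trm, exc_geq hB hG (hN.map _), mcls_geq hΦ hG (hN.map _) ((Cfg.on_map T _).2 hO),
    mcls_map hΦ _ hN hO, map_mul, ← exc_map hB, Cfg.dv_map, ← Tr89.pb_hom_c1 hB,
    Tr89.pb_at_hom hB]

/-- **virtual numbers along a fibration** -/
theorem vir_rel (hB : B.Ax) (hΦ : MCls B T Φ) (θ : K →ₐ[ℂ] L) {z : Cfg io I K} (hz : z.NZ)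
    (m : M → I) {l : List (BD ℂ L)} (hl : l.length + dim ℂ K ≤ dim ℂ L) {z' : Cfg io I' L}
    {m' : M' → I'} {Ψ : MFam B io M'} (hd : z'.dv T = (z.map θ).dv T)
    (h : ∀ W, Dvs W → od W (z'.dv T) ≠ 0 →
      trm B T z' m' Ψ W = pc B (l.map (plV W).rs) * trm B T (z.map θ) m Φ W) :
    vir B T z' m' Ψ = rn θ l * vir B T z m Φ := by
  rw [Cfg.dv_map] at hd
  rw [vir, vir, hd]
  refine finsum_rel θ l _ _ _ fun W hW hV h0 => ?_
  haveI := essFT_Rf hW
  haveI := essFT_Rf hV
  have h1 := dim_rf hW hV.ne_top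
  rw [h W hW (by rw [hd, Ne, od_pb_eq_zero hW hV]; exact h0), trm_map hB hΦ θ hz m hW hV h0,
    itg_rn hB _ _ (by rw [List.length_map]; omega), cw]

end Crest.Agent.X262.Div
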