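import Crest.Agent.X262.Wd54.Lat
import Crest.Agent.X262.Tree87.Rank
import Crest.Agent.X262.Vb10.Mob
import Crest.Agent.X262.Vb.Vir
import Crest.Agent.X262.Val40.Pb

/-!
# Row 262, road B (helper34), part 2: independence of the norming points

* `mul_cfg`, `np_cfg` : the configuration of a datum;
* `ResN`, `exists_resN` : further points do not change the virtual data;
* `vir_res`, `inv` : the input `Inv` of `Vb10/Gw`.
-/

set_option autoImplicit false
set_option linter.unusedSectionVars false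
set_option linter.style.haveILetI false

noncomputable section

namespace Crest.Agent.X262.Div

open Crest.Agent.X277 Crest.Agent.X277.BD Crest.Agent.X277.Pst Crest.Agent.X277.BD.Cyc Polynomial
open Crest.Agent.X262.Geo Crest.Agent.X262.Hb Crest.Agent.X262.Vb
open Crest.Agent.X262.Wd54 (NP Sim)
open Crest.Agent.X262.Bub96 (hv)
open Crest.Agent.X262.Bub96.Tr (dot)

variable {J : Type} [Fintype J] [DecidableEq J] {io : J → Type} [∀ j, Fintype (io j)]
  [∀ j, DecidableEq (io j)] {A : Type} [Fintype A] {B : Th} {T : Tgt io A} {d : J → ℕ} {N c : ℕ}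
variable {I I' M K : Type} [Fintype I] [Fintype I'] [Field K] [Algebra ℂ K]

theorem mem_cfg {ξ : Dat io d I K} {κ : J → ℕ} {σ : I → K} : σ ∈ ξ.cfg.V κ ↔
    ∃ P : K[X], P.natDegree ≤ dot κ d ∧ σ = fun q => hv (dot κ d) P (ξ.x q) :=
  ⟨fun ⟨P, h1, h2⟩ => ⟨P, natDegree_le_of_degree_le (mem_degreeLE.1 h1), h2.symm⟩,
    fun ⟨P, h1, h2⟩ => ⟨P, mem_degreeLE.2 (degree_le_of_natDegree_le h1), h2.symm⟩⟩

theorem mul_cfg (ξ : Dat io d I K) : ξ.cfg.Mul where
  one := mem_cfg.2 ⟨1, by simp, funext fun q => by rcases ξ.x q with _ | t <;> simp [hv, dot]⟩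
  crd j i := by
    have h : dot (Pi.single j 1) d = d j := by
      rw [dot, Finset.sum_eq_single j (fun j' _ h => by simp [h]) (by simp)]
      simp
    exact mem_cfg.2 ⟨ξ.f j i, h ▸ ξ.cp.1 j i, by rw [h]; rfl⟩
  mul κ κ' u u' hu hu' := by
    obtain ⟨P, h1, rfl⟩ := mem_cfg.1 hu
    obtain ⟨Q, h2, rfl⟩ := mem_cfg.1 hu'
    have h : dot (κ + κ') d = dot κ d + dot κ' d := by
      simp only [dot, Pi.add_apply, add_mul, Finset.sum_add_distrib]
    exact mem_cfg.2 ⟨P * Q, h ▸ natDegree_mul_le.trans (add_le_add h1 h2),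
      funext fun q => by rw [h, Bub96.hv_mul h1 h2]; rfl⟩

theorem np_cfg {ξ : Dat io d I' K} {g : I → I'} (h : (ξ.res g).NrmUp N) : NP N ξ.cfg g := by
  intro κ hκ σ hσ W γ h1 q
  obtain ⟨P, h2, rfl⟩ := mem_cfg.1 hσ
  obtain ⟨u, rfl⟩ := W.exists_v γ
  by_cases hu : u = 0
  · have h3 : P = 0 := Bub96.nrm_inj (h κ hκ) h2 fun q => by simpa [hu, Dat.res] using h1 q
    have h4 : ∀ t : Option K, hv (dot κ d) P t = 0 := fun t => by cases t <;> simp [hv, h3]
    simp [h4]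
  · have h3 := h κ hκ K (AlgHom.id ℂ K) W (C u⁻¹ * P) ((natDegree_C_mul_le _ _).trans h2)
    simp only [Vb37.dmap_id, Vb37.hv_C_mul, map_mul, map_inv₀, inv_mul_le_iff₀ (RZ.pos hu)] at h3
    exact h3 h1 (ξ.x q)

variable (B T d) in
/-- further points do not change the virtual data -/
def ResN (N : ℕ) : Prop :=
  ∀ {I I' K : Type} [Fintype I] [Fintype I'] [Field K] [Algebra ℂ K] [Algebra.EssFiniteType ℂ K]
    (ξ : Dat io d I' K) (g : I → I'), (ξ.res g).NrmUp N → Sim B T ξ.cfg (ξ.res g).cfg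

theorem ResN.mono (h : ResN B T d N) {N' : ℕ} (hN : N ≤ N') : ResN B T d N' :=
  fun ξ g h1 => h ξ g (Vb10.nrmUp_mono h1 hN)

theorem exists_resN (hB : B.Ax) (hG : Good T c d) : ∃ N, ResN B T d N := by
  obtain ⟨-, S, hS⟩ := hG
  obtain ⟨N, hN⟩ := Tree87.exists_big S
  replace hN := hN N le_rfl
  refine ⟨N, fun {I I' K} _ _ _ _ _ ξ g h => ?_⟩
  have h1 := np_cfg h
  have hw := Tree87.nz_cfg ξ
  have hM := mul_cfg ξ
  have key : ∀ W : RZ ℂ K, (ξ.cfg.red (plV W)).On T → ∀ q, S.Reg c ((ξ.cfg.red (plV W)).y q) :=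
    fun W => (Bub96.tl_red (Vb10.nrmUp_of_res h) _).reg hS hN
  rw [Vb37.cfg_res]
  refine ⟨hw, hw.res g, (h1.on hN.k_le (.of_cfg hM)).symm, (h1.dv hN.k_le (.of_cfg hM)).symm,
    fun hO => (h1.cE hB hN.k_le (.of_cfg hM) S hN.e_le (c := c) hO fun q => ?_).symm,
    fun W hW hO => ?_⟩
  · obtain ⟨e, he, h2⟩ := (Cfg.red_hom (AlgHom.id ℂ K) hw).trans (.of_eq (Cfg.map_id _))
    rw [h2]
    exact ((Bub96.tl_red (Vb10.nrmUp_of_res h) _).gau he).reg hS hN (h2 ▸ hO) q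
  · have := essFT_Rf hW
    rw [Wd54.cE_congr (z := (ξ.cfg.red (plV W)).res g) (z' := (ξ.cfg.res g).red (plV W)) hN.k_le rfl
      fun κ hκ => h1.red_V hw _ hκ]
    exact ((h1.red hw W).cE hB hN.k_le (.of_cfg (hM.red hw _)) S hN.e_le hO (key W hO)).symm

variable [Algebra.EssFiniteType ℂ K]

theorem exc_sim {z : Cfg io I K} {z' : Cfg io I' K} (h : Sim B T z z') {W : RZ ℂ K} (hW : Dvs W)
    (h0 : (z.dv T).val W ≠ 1) :
    exc B T (z.red (plV W)) (B.pb (LP.at W) (B.c1 (z.dv T))) =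
      exc B T (z'.red (plV W)) (B.pb (LP.at W) (B.c1 (z'.dv T))) := by
  rw [← h.dv]
  exact exc_congr (h.cp W hW (on_at h.nz h0)) _

/-- **independence of the norming points** -/
theorem vir_res (hR : ResN B T d N) (Φ : MFam B io M) (ξ : Dat io d I' K) (g : I → I') (m : M → I)
    (h : (ξ.res g).NrmUp N) :
    vir B T ξ.cfg (fun q => g (m q)) Φ = vir B T (ξ.res g).cfg m Φ :=
  vir_congr (hR ξ g h).dv fun W hW h0 => by
    rw [trm, trm, exc_sim (hR ξ g h) hW h0]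
    rfl

theorem ResN.inv (hB : B.Ax) (hR : ResN B T d N) {Φ : MFam B io M} (hΦ : MCls B T Φ) :
    Vb10.Inv d B T N Φ where
  gau _ _ _ hz hc := vir_gau hB hΦ hz hc
  res := vir_res hR Φ
  pb θ _ m hz := Val40.vir_map hB θ hz m hΦ

theorem inv (hB : B.Ax) (hG : Good T c d) :
    ∃ N, ∀ (M : Type) (Φ : MFam B io M), MCls B T Φ → Vb10.Inv d B T N Φ :=
  (exists_resN hB hG).imp fun _ h _ _ hΦ => h.inv hB hΦ

/-- the invariants are well defined -/
theorem isGW_GW (hB : B.Ax) (hG : Good T c d) [Fintype M] {Φ : MFam B io M} (hΦ : MCls B T Φ) :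
    IsGW B T d Φ (GW B T d Φ) := by
  obtain ⟨N, hN⟩ := inv hB hG
  exact Vb10.isGW_GW Vb10.exNrm (Vb10.mob io d) (hN M Φ hΦ)

end Crest.Agent.X262.Div
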