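import Crest.Agent.X262.Div34.Core
import Crest.Agent.X262.Div34.Res
import Crest.Agent.X262.Loc95.Kc

/-!
# Row 262, road B (helper34), part 3: string and divisor equations

* `mxf_cp`     : the degree of a map from the line;
* `opt`, `exists_opt` : the universal curve;
* `vir_zero`, `exists_low` : data defined over a field of smaller dimension;
* `axSStmt : AxSStmt`.
-/

set_option autoImplicit false
set_option linter.unusedSectionVars false
set_option linter.style.haveILetI false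

noncomputable section

namespace Crest.Agent.X262.Div

open Crest.Agent.X277 Crest.Agent.X277.BD Crest.Agent.X277.Pst Crest.Agent.X277.BD.Cyc Polynomial
open Crest.Agent.X262.Geo Crest.Agent.X262.Hb Crest.Agent.X262.Vb Crest.Agent.X262.Vb10
open Crest.Agent.X262.Bub96 (hv)
open Crest.Agent.X262.Tr89 (pc)
open IntermediateField

/-- coprime forms define the multiple of the hyperplane class -/
theorem mxf_cp {K F ι : Type} [Field K] [Field F] [Algebra K F] [Fintype ι] {n : ℕ} {f : ι → K[X]}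
    (h1 : ∀ i, (f i).natDegree ≤ n) (h2 : ∃ i, (f i).coeff n ≠ 0)
    (h3 : Ideal.span (Set.range f) = ⊤) (t : F) :
    mxf K (fun i => aeval t (f i)) = n • mxf K ![1, t] := by
  have key : ∀ (m : ℕ) (p : K[X]), p.natDegree ≤ m → aeval t p ∈ (m • mxf K ![1, t]).Sec := by
    intro m p hp
    rw [aeval_eq_sum_range' (Nat.lt_succ_of_le hp)]
    refine Submodule.sum_mem _ fun l hl => Submodule.smul_mem _ _ ?_
    obtain ⟨j, rfl⟩ := Nat.exists_eq_add_of_le (Nat.lt_succ_iff.1 (Finset.mem_range.1 hl))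
    simpa [add_nsmul] using mul_mem_Sec (pow_mem_Sec (mem_Sec_mxf (k := K) ![1, t] 1) l)
      (pow_mem_Sec (mem_Sec_mxf (k := K) ![1, t] 0) j)
  refine (eq_mxf (fun i => key n _ (h1 i)) fun V => ?_).symm
  rcases le_or_gt (V.v t) 1 with h | h
  · have h4 : (mxf K ![1, t]).val V = 1 := by
      simpa using val_mxf (k := K) (s := ![1, t]) (V := V) (i := 0) (by simp)
        (Fin.forall_fin_two.2 ⟨le_rfl, by simpa using h⟩)
    have h5 : ∀ p : K[X], V.v (aeval t p) ≤ 1 := fun p => by simpa [h4] using key _ p le_rfl V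
    obtain ⟨c, hc⟩ := Ideal.mem_span_range_iff_exists_fun.1 (h3 ▸ Submodule.mem_top (x := (1 : K[X])))
    by_contra h6
    have h7 : V.v (aeval t (∑ i, c i * f i)) < 1 := by
      rw [map_sum]
      refine V.v.map_sum_lt one_ne_zero fun i _ => ?_
      rw [map_mul, map_mul]
      exact mul_lt_one_of_nonneg_of_lt_one_right (h5 _) zero_le
        (lt_of_le_of_ne (h5 _) fun h8 => h6 ⟨i, by simp [h4, h8]⟩)
    simp [hc] at h7
  · have h0 : t ≠ 0 := fun h0 => by simp [h0] at h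
    have h4 : (mxf K ![1, t]).val V = V.v t :=
      val_mxf (k := K) (s := ![1, t]) (V := V) (i := 1) h0
        (Fin.forall_fin_two.2 ⟨by simpa using h.le, le_rfl⟩)
    obtain ⟨i, hi⟩ := h2
    have h5 : V.v ((f i).coeff n • t ^ n) = V.v t ^ n := by
      rw [Algebra.smul_def, map_mul, V.v_alg hi, one_mul, map_pow]
    refine ⟨i, ?_⟩
    rw [aeval_eq_sum_range' (Nat.lt_succ_of_le (h1 i)), Finset.sum_range_succ, val_nsmul, h4, ← h5]
    refine V.v.map_add_eq_of_lt_right (V.v.map_sum_lt (by simp [h5, h0]) fun l hl => ?_)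
    rw [h5]
    exact (V.v_smul_le _ _).trans_lt (by
      rw [map_pow]; exact pow_lt_pow_right₀ h (Finset.mem_range.1 hl))

variable {J : Type} [Fintype J] [DecidableEq J] {io : J → Type} [∀ j, Fintype (io j)]
  [∀ j, DecidableEq (io j)] {A : Type} [Fintype A] {B : Th} {T : Tgt io A} {d : J → ℕ} {N c : ℕ}
variable {I M K L : Type} [Fintype I] [Fintype M] [Field K] [Algebra ℂ K] [Field L] [Algebra ℂ L]
  [Algebra.EssFiniteType ℂ K] [Algebra.EssFiniteType ℂ L] {Φ : MFam B io M}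

/-- one more point -/
def opt (ξ : Dat io d M K) (t : K) : Dat io d (Option M) K :=
  ⟨ξ.f, fun q => q.elim (some t) ξ.x, ξ.cp⟩

/-- **the universal curve** -/
theorem exists_opt {ξ : Dat io d M K} (hu : ξ.Univ) : ∃ (F : Type) (_ : Field F) (_ : Algebra ℂ F)
    (_ : Algebra.EssFiniteType ℂ F) (ι : K →ₐ[ℂ] F) (t : F), (opt (ξ.map ι) t).Univ ∧
    dim ℂ F = dim ℂ K + 1 ∧ ∀ j, rn ι [ln ((ξ.map ι).pt (some t)) j] = d j := by
  haveI : CharZero K := charZero_of_injective_algebraMap (algebraMap ℂ K).injective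
  haveI := Algebra.EssFiniteType.of_isLocalization (RatFunc K) (nonZeroDivisors K[X])
  haveI := Algebra.EssFiniteType.comp K K[X] (RatFunc K)
  haveI := Algebra.EssFiniteType.comp ℂ K (RatFunc K)
  have ht := RatFunc.transcendental_X (K := K)
  have hd : dim ℂ (RatFunc K) = dim ℂ K + 1 := by
    rw [Loc.dim_tower ℂ K (RatFunc K), Loc.dim_rat ht RatFunc.adjoin_X]
  let ι := IsScalarTower.toAlgHom ℂ K (RatFunc K)
  refine ⟨RatFunc K, inferInstance, inferInstance, inferInstance, ι, RatFunc.X, ⟨?_, ?_, ?_⟩, hd,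
    fun j => ?_⟩
  · obtain ⟨a, b, c, h1, h2, h3⟩ := hu.1
    exact ⟨some a, some b, some c, by simp [opt, Dat.map, h1], by simp [opt, Dat.map, h2],
      by simp [opt, Dat.map, h3]⟩
  · have h1 : (adjoin ℂ ξ.crd).map ι ≤ adjoin ℂ (opt (ξ.map ι) RatFunc.X).crd := by
      rw [adjoin_map, ← Vb37.crd_map]
      exact adjoin.mono _ _ _ fun x hx => hx.imp id fun ⟨q, hq⟩ => ⟨some q, hq⟩
    have h2 : (K⟮(RatFunc.X : RatFunc K)⟯).toSubfield ≤
        (adjoin ℂ (opt (ξ.map ι) RatFunc.X).crd).toSubfield := by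
      rw [adjoin_toSubfield, Subfield.closure_le]
      rintro _ (⟨x, rfl⟩ | rfl)
      · exact h1 ⟨x, hu.2.1 ▸ mem_top, rfl⟩
      · exact subset_adjoin _ _ (Or.inr ⟨none, rfl⟩)
    exact eq_top_iff.2 fun x _ => h2 (by rw [RatFunc.adjoin_X]; trivial)
  · have h1 := Vb37.univ_card hu
    have h2 := hu.2.2
    rw [trdeg_eq_dim, Nat.cast_inj] at h2 ⊢
    rw [hd, h2, Fintype.card_option, mdim, mdim]
    omega
  · have h1 : up K (ln ((ξ.map ι).pt (some RatFunc.X)) j) = d j • mxf K ![1, RatFunc.X] := by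
      rw [ln, up_mxf, ← mxf_cp (ξ.cp.1 j) (ξ.cp.2.1 j) (ξ.cp.2.2 j)]
      exact congrArg _ (funext fun i => eval_map_algebraMap _ _)
    rw [rn_tower, List.map_singleton, h1, bnum_nsmul, Loc.bnum_pole_rat ht RatFunc.adjoin_X,
      mul_one]

/-- no universal datum -/
theorem GW_of_not (h : ∀ (K : Type) [Field K] [Algebra ℂ K] [Algebra.EssFiniteType ℂ K]
    (ξ : Dat io d M K), ¬ ξ.Univ) : GW B T d Φ = 0 :=
  dif_neg fun ⟨_, _, hv⟩ => by
    have : ∀ w, IsGW B T d Φ w := fun w =>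
      ⟨0, fun _ K₀ _ _ _ _ _ _ _ _ _ _ _ ⟨ξ₀, h0, _⟩ _ => (h K₀ ξ₀ h0).elim⟩
    exact zero_ne_one ((hv 0 (this 0)).trans (hv 1 (this 1)).symm)

/-- marked data defined over a field of smaller dimension have no virtual number -/
theorem vir_zero (hI : Inv d B T N Φ) {ξ : Dat io d M K} {θ : K →ₐ[ℂ] L} (hθ : deg θ = 0)
    {η : Dat io d I L} {m : M → I} (h : (ξ.map θ).Eqv (η.res m)) (hη : η.NrmUp N) :
    vir B T η.cfg m Φ = 0 := by
  obtain ⟨E, _, _, _, τ, n, ζ, hτ, hζ, hN⟩ := exNrm ξ N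
  obtain ⟨F, _, _, a, b, ha, hab⟩ := exists_amal θ τ hτ
  have := eft_of_deg a ha
  have h3 : ((ζ.map b).res Sum.inl).Eqv ((η.map a).res m) := by
    rw [← map_res, hζ, Vb10.map_map, ← hab, ← Vb10.map_map, ← map_res]
    exact Vb37.eqv_map h a
  have h4 := vir_cmp (mob io d) hI h3 (nrmUp_map hN b) (nrmUp_map hη a)
  have h5 := congrArg deg hab
  rw [deg_comp, deg_comp, hθ, zero_mul, eq_comm, mul_eq_zero, or_iff_right hτ.ne'] at h5
  rw [vir_map (mob io d) hI, vir_map (mob io d) hI, h5, Nat.cast_zero, zero_mul] at h4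
  exact (mul_eq_zero.1 h4).resolve_left (Nat.cast_ne_zero.2 ha.ne')

theorem coeff_mob_diag (u : K) (f : K[X]) {n l : ℕ} (h : l ≤ n) :
    (Vb.mob n !![u, 0; 0, 1] f).coeff l = f.coeff l * u ^ l := by
  have h1 : ∀ m, C (f.coeff m) * (C u * X) ^ m = monomial m (f.coeff m * u ^ m) := fun m => by
    rw [mul_pow, ← C_pow, ← mul_assoc, ← C_mul, C_mul_X_pow_eq_monomial]
  simp [Vb.mob, h1, coeff_monomial, Nat.lt_succ_of_le h]

/-- a map of positive degree with two marks has fewer moduli than one with three marks -/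
theorem exists_low (hd : d ≠ 0) (hM : Fintype.card M < 3) {ξ : Dat io d (Option M) K}
    (hu : ξ.Univ) : ∃ (E : Type) (_ : Field E) (_ : Algebra ℂ E) (_ : Algebra.EssFiniteType ℂ E)
    (θ : E →ₐ[ℂ] K) (ζ : Dat io d M E), deg θ = 0 ∧ (ζ.map θ).Eqv (ξ.res some) := by
  classical
  have h2 : (Finset.univ : Finset M).card = 2 := by
    have := Vb37.univ_card hu
    rw [Fintype.card_option] at this
    rw [Finset.card_univ]
    omega
  obtain ⟨a, b, hab, h2⟩ := Finset.card_eq_two.1 h2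
  obtain ⟨η, he, hn, hη⟩ := Vb37.univ_nm3 hu (a := some a) (b := some b) (c := none) (by simpa)
    (by simp) (by simp)
  obtain ⟨j, hj⟩ := Function.ne_iff.1 hd
  replace hj : 1 ≤ d j := Nat.pos_of_ne_zero hj
  choose i _ using η.cp.2.1
  have h0 := fun j => Vb37.univ_coeff_ne hη j (i j) (Nat.zero_le _)
  have h1 := Vb37.univ_coeff_ne hη j (i j) hj
  let u := (η.f j (i j)).coeff 0 / (η.f j (i j)).coeff 1
  have hg : (!![u, 0; 0, 1]).det ≠ 0 := by simpa [u] using div_ne_zero (h0 j) h1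
  let η' : Dat io d (Option M) K := ⟨fun j i => C 1 * Vb.mob (d j) !![u, 0; 0, 1] (η.f j i), η.x,
    Vb37.cp_mob η.cp hg fun _ => one_ne_zero⟩
  have h3 : (η.res some).Eqv (η'.res some) := ⟨_, fun _ => 1, hg, fun _ => one_ne_zero,
    fun _ _ => rfl, fun q => by
      have h4 : q = a ∨ q = b := by simpa [h2] using Finset.mem_univ q
      change ∃ v : K, Matrix.mulVec _ (hx (η.x (some q))) = v • hx (η.x (some q))
      rcases h4 with rfl | rfl
      · exact ⟨u, by rw [hn.1]; funext l; fin_cases l <;> simp [hx]⟩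
      · exact ⟨1, by rw [hn.2.1]; funext l; fin_cases l <;> simp [hx]⟩⟩
  let p0 : (j : J) → io j × Fin (d j + 1) := fun j => (i j, 0)
  have h4 : ∀ j, (η'.f j (p0 j).1).coeff (p0 j).2 ≠ 0 := fun j => by
    simpa [η', p0, coeff_mob_diag] using h0 j
  let G := Vb37.gen η' p0 (some a) (some b) none
  let E := adjoin ℂ (Set.range G)
  haveI : Algebra.EssFiniteType ℂ E := essFiniteType_iff.2 (fg_adjoin_of_finite (Set.finite_range _))
  obtain ⟨ζ, e1, s, e2, e3⟩ := Vb37.exists_desc η' E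
    (adjoin_le_iff.1 (Vb37.adjoin_gen (ξ := η') hn h4))
  refine ⟨E, inferInstance, inferInstance, inferInstance, E.val, ζ.res some,
    Nat.eq_zero_of_not_pos fun h5 => ?_, Vb37.eqv_trans (eqv_res (Vb37.eqv_of_scl e1.symm e2 e3) some)
      (Vb37.eqv_symm (Vb37.eqv_trans (eqv_res he some) h3))⟩
  rw [Loc.val_eq, deg_tower] at h5
  haveI := Module.finite_of_finrank_pos h5
  haveI : Algebra.IsAlgebraic (Algebra.adjoin ℂ (Set.range G)) K :=
    isAlgebraic_adjoin_iff_top.1 inferInstance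
  have h6 := (Algebra.IsAlgebraic.isTranscendenceBasis_of_le_trdeg_of_finite ℂ G (by
    rw [hη.2.2, ← Vb37.card_Ix p0 hn.ne.1 hn.ne.2.1 hn.ne.2.2, Nat.card,
      Cardinal.cast_toNat_of_lt_aleph0 (Cardinal.lt_aleph0_of_finite _)])).1.transcendental
    (.inl ⟨j, (i j, ⟨1, Nat.lt_succ_of_le hj⟩), by simp [p0, Fin.ext_iff]⟩)
  refine h6 ?_
  have h7 : G (.inl ⟨j, (i j, ⟨1, Nat.lt_succ_of_le hj⟩), by simp [p0, Fin.ext_iff]⟩) = 1 := by
    simp only [G, Vb37.gen, η', p0, C_1, one_mul, coeff_mob_diag _ _ hj, Fin.val_zero,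
      coeff_mob_diag _ _ (Nat.zero_le _), pow_zero, pow_one, mul_one, u]
    field_simp [h0 j]
  exact h7 ▸ isAlgebraic_one

/-- **string equation** -/
theorem str (hB : B.Ax) (hG : Good T c d) (hΦ : MCls B T Φ) (h : d ≠ 0 ∨ 3 ≤ Fintype.card M) :
    GW B T d (M := Option M) (fun E _ _ y => Φ E fun q => y (some q)) = 0 := by
  obtain ⟨N, hN⟩ := inv hB hG
  have key : ∀ {K E : Type} [Field K] [Algebra ℂ K] [Algebra.EssFiniteType ℂ K] [Field E]
      [Algebra ℂ E] [Algebra.EssFiniteType ℂ E] (ξ : Dat io d (Option M) K) (θ : E →ₐ[ℂ] K)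
      (ζ : Dat io d M E), ξ.Univ → deg θ = 0 → (ζ.map θ).Eqv (ξ.res some) →
      GW B T d (M := Option M) (fun E _ _ y => Φ E fun q => y (some q)) = 0 := by
    intro K E _ _ _ _ _ _ ξ θ ζ hu hθ he
    obtain ⟨L, _, _, _, τ, n, η, hτ, hη, h1⟩ := exNrm ξ N
    have h2 := vir_eq_GW exNrm (mob io d) (hN _ _ (hΦ.comp some)) (over_inl hu hη (mob io d)) h1
    have h3 := vir_zero (hN _ _ hΦ) (θ := τ.comp θ) (by rw [deg_comp, hθ, zero_mul]) (ξ := ζ)
      (η := η) (m := fun q => Sum.inl (some q)) (by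
        rw [← Vb10.map_map]
        exact (congrArg (Dat.res some) hη).symm ▸ Vb37.eqv_map he τ) h1
    exact (mul_eq_zero.1 (h2.symm.trans h3)).resolve_left (Nat.cast_ne_zero.2 hτ.ne')
  by_contra h0
  refine h0 (GW_of_not fun K _ _ _ ξ hu => h0 ?_)
  rcases lt_or_ge (Fintype.card M) 3 with h1 | h1
  · obtain ⟨E, _, _, _, θ, ζ, h2, h3⟩ := exists_low (h.resolve_right h1.not_ge) h1 hu
    exact key ξ θ ζ hu h2 h3
  · obtain ⟨E, _, _, _, ζ, h2⟩ := Vb37.exists_univ_of_dat ξ h1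
    obtain ⟨F, _, _, _, ι, t, h3, h4, -⟩ := exists_opt h2
    refine key _ ι ζ h3 (Nat.eq_zero_of_not_pos fun h5 => ?_) (Vb37.eqv_refl _)
    have := (deg_pos_iff ι).1 h5
    omega

theorem hc_red (hB : B.Ax) {E : Type} [Field E] [Algebra ℂ E] {z : Cfg io I K} (hz : z.NZ)
    (p : LP K E) (q : I) (j : J) :
    hc B j E ((z.red p.toPl).y q) = B.c1 (p.rs (ln (z.y q) j)) := by
  have h := Cfg.pr_nrm hz p.V q
  change B.c1 (ln (redP p.toPl _) j) = _
  rw [ln_red h, ← hB.pb_c1_res p (h.val_ln j), Cfg.gau_y, ln_scl (hz q) (Cfg.nrm_ne _ z q), map_add,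
    hB.c1_pr, add_zero, hB.pb_c1]

/-- **divisor equation** -/
theorem dvz (hB : B.Ax) (hG : Good T c d) (hΦ : MCls B T Φ) (j : J) (h : 3 ≤ Fintype.card M) :
    GW B T d (M := Option M) (fun E _ _ y => hc B j E (y none) * Φ E fun q => y (some q)) =
      d j * GW B T d Φ := by
  obtain ⟨N, hR⟩ := exists_resN hB hG
  by_cases hU : ∀ (K : Type) [Field K] [Algebra ℂ K] [Algebra.EssFiniteType ℂ K]
    (ξ : Dat io d M K), ¬ ξ.Univ
  · rw [GW_of_not hU, mul_zero]
    refine GW_of_not fun K _ _ _ ξ _ => ?_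
    obtain ⟨E, _, _, _, ζ, h2⟩ := Vb37.exists_univ_of_dat ξ h
    exact hU E ζ h2
  simp only [not_forall, not_not] at hU
  obtain ⟨K, _, _, _, ξ, hu⟩ := hU
  obtain ⟨E, _, _, _, ι, t, h1, h2, h3⟩ := exists_opt hu
  obtain ⟨L, _, _, _, τ, n, η, hτ, hη, hN⟩ := exNrm ξ N
  obtain ⟨F, _, _, a, b, ha, hab⟩ := exists_amal ι τ hτ
  have := eft_of_deg a ha
  have e : (η.map b).res Sum.inl = (ξ.map ι).map a := by rw [← map_res, hη, Vb10.map_map, Vb10.map_map, hab]
  let ζ : Dat io d (Option M ⊕ Fin n) F := ⟨(η.map b).f, Sum.elim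
    (fun q => q.elim (some (a t)) fun q => (η.map b).x (.inl q)) fun k => (η.map b).x (.inr k),
    (η.map b).cp⟩
  have hg : ζ.res (Sum.map some id) = η.map b := dat_ext rfl (funext fun q => by cases q <;> rfl)
  have hζ : ζ.res Sum.inl = (opt (ξ.map ι) t).map a := dat_ext (congrArg Dat.f e :)
    (funext fun q => by
      cases q
      exacts [rfl, congrFun (congrArg Dat.x e) _])
  have hN' : (ζ.res (Sum.map some id)).NrmUp N := hg ▸ nrmUp_map hN b
  have hS := hR ζ _ hN'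
  have hΨ := ((cls_hc (T := T) hB j).at none).mul (hΦ.comp some)
  have h4 := vir_eq_GW exNrm (mob io d) (hR.inv hB hΨ) (over_inl h1 hζ (mob io d))
    (nrmUp_of_res hN')
  have h5 := vir_eq_GW exNrm (mob io d) (hR.inv hB hΦ) (over_inl hu hη (mob io d)) hN
  have d1 := (deg_pos_iff a).1 ha
  have d2 := (deg_pos_iff τ).1 hτ
  have h6 := vir_rel hB hΦ b (Tree87.nz_cfg η) Sum.inl (l := [ln (ζ.cfg.y (.inl none)) j])
    (by simp; omega) (z' := ζ.cfg) (m' := Sum.inl)
    (Ψ := fun E _ _ y => hc B j E (y none) * Φ E fun q => y (some q))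
    (by rw [hS.dv, hg, Vb37.cfg_map]) fun W hW h0 => by
      rw [← Vb37.cfg_map, ← hg, trm, trm, exc_sim hS hW ((od_eq_zero hW).not.1 h0), mul_left_comm]
      simp only [pc, List.map_singleton, List.prod_singleton]
      exact congrArg (· * _) (hc_red hB hS.nz (LP.at W) (.inl none) j)
  have h7 : [ln (ζ.cfg.y (.inl none)) j] = [ln ((ξ.map ι).pt (some t)) j].map (pb a) := by
    rw [List.map_singleton, ← ln_map]
    congr 2
    funext j i
    exact (congrArg (fun f : (j : J) → io j → F[X] => hv (d j) (f j i) (some (a t)))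
      (congrArg Dat.f e)).trans (Vb37.dmap_pt a _ (some t) j i)
  have h8 := rn_comp τ b d2 [ln (ζ.cfg.y (.inl none)) j]
  rw [← hab, h7, rn_pb, h3, ← h7] at h8
  have h9 := h4.symm.trans h6
  rw [h5, ← mul_assoc, mul_comm _ (deg τ : ℂ)] at h9
  have h10 : (deg τ : ℂ) * (rn b [ln (ζ.cfg.y (.inl none)) j] : ℤ) = deg a * d j := by
    exact_mod_cast h8.symm
  rw [h10, mul_assoc] at h9
  exact mul_left_cancel₀ (Nat.cast_ne_zero.2 ha.ne') h9

/-- **string and divisor equations** -/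
theorem axSStmt : AxSStmt := fun _ hB _ _ _ _ _ _ _ _ _ _ _ hG =>
  ⟨fun _ hΦ h => str hB hG hΦ h, fun _ j hΦ h => dvz hB hG hΦ j h⟩

end Crest.Agent.X262.Div
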